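import Vale.Agent.P238.Bdl.B1

/-- The `ℓ₁` distortion of the edit distance on binary words of length `n` is at least
`exp (c √(log n log log n))` for all large `n`. -/
theorem Vale.Agent.Results.P238.MatchingLower.result :
    ∃ c : ℝ, 0 < c ∧ ∃ n₀ : ℕ, ∀ n : ℕ, n₀ ≤ n →
      Real.exp (c * Real.sqrt (Real.log n * Real.log (Real.log n))) ≤
        Vale.Agent.P238.c1 (Vale.Agent.P238.binED n) :=
  Vale.Agent.P238.Full.full_lower
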